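import Vale.Agent.P250.Stmt
import Mathlib.Analysis.Calculus.FDeriv.Symmetric
import Mathlib.Analysis.Calculus.ContDiff.FiniteDimension
import Mathlib.Analysis.Calculus.ContDiff.Deriv

/-! The metric and the Christoffel symbols as smooth fields of continuous bilinear maps. -/

set_option linter.unusedSectionVars false
set_option maxSynthPendingDepth 3

namespace Vale.Agent.P250I

open scoped ContDiff Topology
open Filter Set Vale.Agent.P250

noncomputable section

variable {E : Type} [NormedAddCommGroup E] [NormedSpace ℝ E] [FiniteDimensional ℝ E]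
  {F : Type} [NormedAddCommGroup F] [NormedSpace ℝ F]

theorem exists_bilin (f : E → E → E → F) (U : Set E)
    (h1 : ∀ p ∈ U, ∀ (r : ℝ) (X Y Z : E), f p (X + r • Y) Z = f p X Z + r • f p Y Z)
    (h2 : ∀ p ∈ U, ∀ (r : ℝ) (X Y Z : E), f p Z (X + r • Y) = f p Z X + r • f p Z Y)
    (hs : ∀ X Y, ContDiffOn ℝ ∞ (fun p => f p X Y) U) :
    ∃ B : E → E →L[ℝ] E →L[ℝ] F, ContDiffOn ℝ ∞ B U ∧ ∀ p ∈ U, ∀ X Y, B p X Y = f p X Y := by
  have key : ∀ p, ∃ B : E →L[ℝ] E →L[ℝ] F, p ∈ U → ∀ X Y, B X Y = f p X Y := by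
    intro p
    by_cases hp : p ∈ U
    · have z1 : ∀ Z, f p 0 Z = 0 := fun Z => by simpa using h1 p hp 1 0 0 Z
      have z2 : ∀ Z, f p Z 0 = 0 := fun Z => by simpa using h2 p hp 1 0 0 Z
      let b : E →ₗ[ℝ] E →ₗ[ℝ] F := LinearMap.mk₂ ℝ (f p)
        (fun X Y Z => by simpa using h1 p hp 1 X Y Z)
        (fun r X Z => by simpa [z1] using h1 p hp r 0 X Z)
        (fun Z X Y => by simpa using h2 p hp 1 X Y Z)
        (fun r Z X => by simpa [z2] using h2 p hp r 0 X Z)
      exact ⟨LinearMap.toContinuousLinearMap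
        ((LinearMap.toContinuousLinearMap : (E →ₗ[ℝ] F) ≃ₗ[ℝ] (E →L[ℝ] F)).toLinearMap ∘ₗ b),
        fun _ _ _ => rfl⟩
    · exact ⟨0, fun h => absurd h hp⟩
  choose B hB using key
  refine ⟨B, ?_, hB⟩
  refine contDiffOn_clm_apply.2 fun X => contDiffOn_clm_apply.2 fun Y => ?_
  exact (hs X Y).congr fun p hp => hB p hp X Y

theorem fd_bilin {B : E → E →L[ℝ] E →L[ℝ] F} {V W : E → E} {p : E} (hB : DifferentiableAt ℝ B p)
    (hV : DifferentiableAt ℝ V p) (hW : DifferentiableAt ℝ W p) (X : E) :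
    fderiv ℝ (fun q => B q (V q) (W q)) p X = fderiv ℝ B p X (V p) (W p)
      + B p (fderiv ℝ V p X) (W p) + B p (V p) (fderiv ℝ W p X) := by
  rw [((hB.hasFDerivAt.clm_apply hV.hasFDerivAt).clm_apply hW.hasFDerivAt).fderiv]
  simp only [ContinuousLinearMap.add_apply, ContinuousLinearMap.comp_apply,
    ContinuousLinearMap.flip_apply]
  abel

theorem fd_const {B : E → E →L[ℝ] E →L[ℝ] F} {f : E → E → E → F} {U : Set E} (hU : IsOpen U)
    (hB : ContDiffOn ℝ ∞ B U) (hf : ∀ p ∈ U, ∀ X Y, B p X Y = f p X Y) {p : E} (hp : p ∈ U)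
    (X Y Z : E) : fderiv ℝ (fun q => f q Y Z) p X = fderiv ℝ B p X Y Z := by
  have e : (fun q => f q Y Z) =ᶠ[𝓝 p] fun q => B q Y Z := by
    filter_upwards [hU.mem_nhds hp] with q hq using (hf q hq Y Z).symm
  rw [e.fderiv_eq, fd_bilin ((hB.contDiffAt (hU.mem_nhds hp)).differentiableAt (by simp))
    (differentiableAt_const Y) (differentiableAt_const Z)]
  simp

/-- a metric and its Christoffel symbols on the open set `U` -/
structure Data (U : Set E) (G : E → E →L[ℝ] E →L[ℝ] ℝ) (C : E → E →L[ℝ] E →L[ℝ] E) : Prop where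
  sG : ContDiffOn ℝ ∞ G U
  sC : ContDiffOn ℝ ∞ C U
  symm : ∀ p ∈ U, ∀ X Y, G p X Y = G p Y X
  pos : ∀ p ∈ U, ∀ X, X ≠ 0 → 0 < G p X X
  koszul : ∀ p ∈ U, ∀ X Y Z, 2 * G p (C p X Y) Z
    = fderiv ℝ G p X Y Z + fderiv ℝ G p Y X Z - fderiv ℝ G p Z X Y

theorem exists_data {g : E → E → E → ℝ} {Γ : E → E → E → E} {U : Set E} (hU : IsOpen U)
    (hg : S.IsRiemannianMetric g U) (hΓ : S.IsLeviCivita g Γ U) :
    ∃ G C, Data U G C ∧ (∀ p ∈ U, ∀ X Y, G p X Y = g p X Y) ∧
      ∀ p ∈ U, ∀ X Y, C p X Y = Γ p X Y := by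
  obtain ⟨G, sG, hG⟩ := exists_bilin g U (fun p hp r X Y Z => hg.linear p hp r X Y Z)
    (fun p hp r X Y Z => by
      rw [hg.symm p hp Z, hg.linear p hp, hg.symm p hp X, hg.symm p hp Y, smul_eq_mul])
    hg.smooth
  have pos : ∀ p ∈ U, ∀ X, X ≠ 0 → 0 < G p X X := fun p hp X hX => by
    rw [hG p hp]; exact hg.pos p hp X hX
  have kz : ∀ p ∈ U, ∀ X Y Z, 2 * G p (Γ p X Y) Z
      = fderiv ℝ G p X Y Z + fderiv ℝ G p Y X Z - fderiv ℝ G p Z X Y := fun p hp X Y Z => by
    rw [hG p hp, hΓ.koszul p hp, fd_const hU sG hG hp, fd_const hU sG hG hp, fd_const hU sG hG hp]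
  have inj : ∀ p ∈ U, ∀ A B : E, (∀ Z, 2 * G p A Z = 2 * G p B Z) → A = B := by
    intro p hp A B h
    by_contra hne
    have h1 := pos p hp (A - B) (sub_ne_zero.2 hne)
    have h2 := h (A - B)
    rw [map_sub (G p), ContinuousLinearMap.sub_apply] at h1
    linarith
  obtain ⟨C, sC, hC⟩ := exists_bilin Γ U
    (fun p hp r X Y Z => inj p hp _ _ fun W => by
      have h1 := kz p hp X Z W
      have h2 := kz p hp Y Z W
      rw [kz p hp]
      simp only [map_add, map_smul, ContinuousLinearMap.add_apply, ContinuousLinearMap.smul_apply,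
        smul_eq_mul]
      linear_combination (-1) * h1 - r * h2)
    (fun p hp r X Y Z => inj p hp _ _ fun W => by
      have h1 := kz p hp Z X W
      have h2 := kz p hp Z Y W
      rw [kz p hp]
      simp only [map_add, map_smul, ContinuousLinearMap.add_apply, ContinuousLinearMap.smul_apply,
        smul_eq_mul]
      linear_combination (-1) * h1 - r * h2)
    hΓ.smooth
  refine ⟨G, C, ⟨sG, sC, fun p hp X Y => ?_, pos, fun p hp X Y Z => ?_⟩, hG, hC⟩
  · rw [hG p hp, hG p hp, hg.symm p hp]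
  · rw [hC p hp, kz p hp]

theorem riem_eq {C : E → E →L[ℝ] E →L[ℝ] E} {Γ : E → E → E → E} {U : Set E} (hU : IsOpen U)
    (sC : ContDiffOn ℝ ∞ C U) (hC : ∀ p ∈ U, ∀ X Y, C p X Y = Γ p X Y) {p : E} (hp : p ∈ U)
    (X Y Z : E) : S.riem Γ p X Y Z = fderiv ℝ C p X Y Z - fderiv ℝ C p Y X Z
      + C p X (C p Y Z) - C p Y (C p X Z) := by
  unfold S.riem
  rw [fd_const hU sC hC hp, fd_const hU sC hC hp, hC p hp, hC p hp, hC p hp, hC p hp]

/-- the derivative of `∇_W Z` in coordinates -/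
theorem fd_nab {C : E → E →L[ℝ] E →L[ℝ] E} {W Z : E → E} {p : E} (hC : DifferentiableAt ℝ C p)
    (hW : DifferentiableAt ℝ W p) (hZ : ContDiffAt ℝ ∞ Z p) :
    DifferentiableAt ℝ (fun q => fderiv ℝ Z q (W q) + C q (W q) (Z q)) p ∧ ∀ X,
      fderiv ℝ (fun q => fderiv ℝ Z q (W q) + C q (W q) (Z q)) p X
        = fderiv ℝ (fderiv ℝ Z) p X (W p) + fderiv ℝ Z p (fderiv ℝ W p X)
          + (fderiv ℝ C p X (W p) (Z p) + C p (fderiv ℝ W p X) (Z p)
            + C p (W p) (fderiv ℝ Z p X)) := by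
  have hZ1 : DifferentiableAt ℝ Z p := hZ.differentiableAt (by simp)
  have hZ2 : DifferentiableAt ℝ (fderiv ℝ Z) p :=
    (hZ.fderiv_right (m := 1) (by norm_cast)).differentiableAt (by simp)
  have d1 := hZ2.clm_apply hW
  have d2 := (hC.clm_apply hW).clm_apply hZ1
  refine ⟨d1.add d2, fun X => ?_⟩
  rw [fderiv_fun_add d1 d2, ContinuousLinearMap.add_apply, fd_bilin hC hW hZ1,
    fderiv_clm_apply hZ2 hW]
  simp only [ContinuousLinearMap.add_apply, ContinuousLinearMap.comp_apply,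
    ContinuousLinearMap.flip_apply]
  abel

theorem symm2 {Z : E → E} {p : E} (hZ : ContDiffAt ℝ ∞ Z p) (v w : E) :
    fderiv ℝ (fderiv ℝ Z) p v w = fderiv ℝ (fderiv ℝ Z) p w v :=
  hZ.isSymmSndFDerivAt (by rw [minSmoothness_of_isRCLikeNormedField]; norm_cast) v w

/-- solutions of the geodesic equation are smooth -/
theorem geo_smooth {C : E → E →L[ℝ] E →L[ℝ] E} {U : Set E} (sC : ContDiffOn ℝ ∞ C U)
    {γ γ' : ℝ → E} (hm : ∀ t, γ t ∈ U) (h1 : ∀ t, HasDerivAt γ (γ' t) t)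
    (h2 : ∀ t, HasDerivAt γ' (-(C (γ t) (γ' t) (γ' t))) t) : ContDiff ℝ ∞ γ := by
  have e1 : deriv γ = γ' := funext fun t => (h1 t).deriv
  have e2 : deriv γ' = fun t => -(C (γ t) (γ' t) (γ' t)) := funext fun t => (h2 t).deriv
  have key : ∀ n : ℕ, ContDiff ℝ n γ ∧ ContDiff ℝ n γ' := by
    intro n
    induction n with
    | zero =>
      exact ⟨contDiff_zero.2 (continuous_iff_continuousAt.2 fun t => (h1 t).continuousAt),
        contDiff_zero.2 (continuous_iff_continuousAt.2 fun t => (h2 t).continuousAt)⟩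
    | succ n ih =>
      have hc : ContDiff ℝ n fun t => C (γ t) :=
        (sC.of_le (by exact_mod_cast le_top)).comp_contDiff ih.1 hm
      push_cast
      refine ⟨contDiff_succ_iff_deriv.2 ⟨fun t => (h1 t).differentiableAt, by simp, ?_⟩,
        contDiff_succ_iff_deriv.2 ⟨fun t => (h2 t).differentiableAt, by simp, ?_⟩⟩
      · rw [e1]; exact ih.2
      · rw [e2]; exact ((hc.clm_apply ih.2).clm_apply ih.2).neg
  exact contDiff_infty.2 fun n => (key n).1

/-- the unit ball of a positive definite form is bounded -/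
theorem bdd_ball (B : E →L[ℝ] E →L[ℝ] ℝ) (h : ∀ X, X ≠ 0 → 0 < B X X) :
    Bornology.IsVonNBounded ℝ {v : E | B v v < 1} := by
  rw [NormedSpace.isVonNBounded_iff]
  rcases (Metric.sphere (0 : E) 1).eq_empty_or_nonempty with he | hne
  · have : Subsingleton E := ⟨fun a b => by
      by_contra hab
      have h1 : ‖a - b‖⁻¹ • (a - b) ∈ Metric.sphere (0 : E) 1 := by
        rw [mem_sphere_zero_iff_norm, norm_smul, norm_inv, norm_norm,
          inv_mul_cancel₀ (norm_ne_zero_iff.2 (sub_ne_zero.2 hab))]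
      rw [he] at h1
      exact h1⟩
    exact (Set.toFinite _).isBounded
  · have : ProperSpace E := FiniteDimensional.proper_real E
    obtain ⟨u, hu, hmin⟩ := (isCompact_sphere (0 : E) 1).exists_isMinOn hne
      (f := fun v => B v v) (by fun_prop)
    have hu0 : 0 < B u u := h u (by rintro rfl; simp at hu)
    refine isBounded_iff_forall_norm_le.2 ⟨1 + (B u u)⁻¹, fun v hv => ?_⟩
    rcases eq_or_ne v 0 with rfl | hv0
    · simp only [norm_zero]; positivity
    · have hn : 0 < ‖v‖ := norm_pos_iff.2 hv0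
      have h1 : ‖v‖⁻¹ • v ∈ Metric.sphere (0 : E) 1 := by
        rw [mem_sphere_zero_iff_norm, norm_smul, norm_inv, norm_norm, inv_mul_cancel₀ hn.ne']
      have h2 : B u u ≤ B (‖v‖⁻¹ • v) (‖v‖⁻¹ • v) := hmin h1
      simp only [map_smul, ContinuousLinearMap.smul_apply, smul_eq_mul] at h2
      have h3 : B v v < 1 := hv
      have h4 : B u u * ‖v‖ ^ 2 ≤ B v v := by
        have := mul_le_mul_of_nonneg_right h2 (sq_nonneg ‖v‖)
        refine this.trans_eq ?_
        field_simp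
      have h5 : ‖v‖ ^ 2 ≤ (B u u)⁻¹ := by
        rw [← one_div, le_div_iff₀ hu0]; linarith
      nlinarith [sq_nonneg (‖v‖ - 1)]

end

end Vale.Agent.P250I
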