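import Vale.Agent.P250I46.Op
import Vale.Agent.P250I46.Lin
import Vale.Agent.P211W98.LC

/-! The Levi-Civita connection of an open subset of a vector space in coordinates. -/

set_option linter.unusedSectionVars false
set_option maxSynthPendingDepth 3
set_option backward.isDefEq.respectTransparency false

namespace Vale.Agent.P250I

open scoped Manifold ContDiff Topology
open Bundle VectorField TopologicalSpace Filter Set Vale.Agent.P211 Vale.Agent.P211Z
  Vale.Agent.P211W

noncomputable section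

variable {E : Type} [NormedAddCommGroup E] [NormedSpace ℝ E] [FiniteDimensional ℝ E]
  {U : Opens E} {G : E → E →L[ℝ] E →L[ℝ] ℝ} {C : E → E →L[ℝ] E →L[ℝ] E}

theorem Data.dG (D : Data U G C) (y : U) : ContDiffAt ℝ ∞ G (y : E) :=
  D.sG.contDiffAt (U.isOpen.mem_nhds y.2)

theorem Data.dC (D : Data U G C) (y : U) : ContDiffAt ℝ ∞ C (y : E) :=
  D.sC.contDiffAt (U.isOpen.mem_nhds y.2)

theorem triv_symm (p y : U) (v : E) :
    (trivializationAt E (TangentSpace 𝓘(ℝ, E) : U → Type) p).symm y v = v := by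
  have hy : y ∈ (trivializationAt E (TangentSpace 𝓘(ℝ, E) : U → Type) p).baseSet := by
    rw [TangentBundle.trivializationAt_baseSet, chart_source]; trivial
  have h := (trivializationAt E (TangentSpace 𝓘(ℝ, E) : U → Type) p).symm_apply_apply_mk hy v
  rwa [triv_snd] at h

/-- the metric as a Riemannian metric on the manifold `U` -/
def Data.met (D : Data U G C) :
    ContMDiffRiemannianMetric 𝓘(ℝ, E) ∞ E (fun y : U => TangentSpace 𝓘(ℝ, E) y) where
  inner y := G y
  symm y v w := D.symm y y.2 v w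
  pos y v hv := D.pos y y.2 v hv
  isVonNBounded y := bdd_ball (G y) (D.pos y y.2)
  contMDiff y := by
    rw [contMDiffAt_hom_bundle]
    refine ⟨contMDiffAt_id, ?_⟩
    have h : ContMDiffAt 𝓘(ℝ, E) 𝓘(ℝ, E →L[ℝ] E →L[ℝ] ℝ) ∞ (fun q : U => G q) y :=
      (D.dG y).contMDiffAt.comp y (contMDiff_subtype_val y)
    refine h.congr_of_eventuallyEq (Eventually.of_forall fun z => ?_)
    have hz : z ∈ (trivializationAt E (TangentSpace 𝓘(ℝ, E) : U → Type) y).baseSet := by
      rw [TangentBundle.trivializationAt_baseSet, chart_source]; trivial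
    ext v w
    refine (inCoordinates_apply_eq₂ (E₃ := Bundle.Trivial U ℝ) hz hz (mem_univ _)).trans ?_
    rw [triv_symm, triv_symm]
    simp only [Trivial.fiberBundle_trivializationAt', Trivial.linearMapAt_trivialization,
      LinearMap.id_coe, id_eq]
    rfl

variable [RiemannianBundle fun p : U => TangentSpace 𝓘(ℝ, E) p]
  [IsContMDiffRiemannianBundle 𝓘(ℝ, E) ∞ E fun p : U => TangentSpace 𝓘(ℝ, E) p]

theorem mv_eq {f : U → ℝ} {y : U} (h : DifferentiableAt ℝ (f ∘ io y) (y : E)) (v : E) :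
    mvfderiv 𝓘(ℝ, E) f y v = fderiv ℝ (f ∘ io y) (y : E) v := by
  rw [← mfderiv_eq h]
  rfl

variable (D : Data U G C)
  (hin : ∀ (y : U) (v w : TangentSpace 𝓘(ℝ, E) y), inner ℝ v w = G y v w)
include D hin

theorem dg_eq {X Y Z : (y : U) → TangentSpace 𝓘(ℝ, E) y} {y : U}
    (hY : DifferentiableAt ℝ (ex Y y) (y : E)) (hZ : DifferentiableAt ℝ (ex Z y) (y : E)) :
    dg X Y Z y = fderiv ℝ G y (X y) (Y y) (Z y) + G y (fderiv ℝ (ex Y y) y (X y)) (Z y)
      + G y (Y y) (fderiv ℝ (ex Z y) y (X y)) := by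
  have hG := (D.dG y).differentiableAt (by simp)
  have e : (fun q : U => inner ℝ (Y q) (Z q)) ∘ io y
      =ᶠ[𝓝 (y : E)] fun z => G z (ex Y y z) (ex Z y z) := by
    filter_upwards [val_io_ev y y] with z hz
    rw [Function.comp_apply, hin, hz]
    rfl
  unfold dg
  rw [mv_eq (((hG.clm_apply hY).clm_apply hZ).congr_of_eventuallyEq e), e.fderiv_eq,
    fd_bilin hG hY hZ, ex_val, ex_val]

variable {cov : CovariantDerivative 𝓘(ℝ, E) E (TangentSpace 𝓘(ℝ, E) : U → Type)}
  (ht : cov.torsion = 0)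
  (hm : CovariantDerivative.IsMetricCompatible (V := (TangentSpace 𝓘(ℝ, E) : U → Type)) cov)
include ht hm

theorem cov_eq {Y : (y : U) → TangentSpace 𝓘(ℝ, E) y} {y : U}
    (hY : DifferentiableAt ℝ (ex Y y) (y : E)) (u : E) :
    cov Y y u = fderiv ℝ (ex Y y) y u + C y u (Y y) := by
  have : CompleteSpace E := FiniteDimensional.complete ℝ E
  refine ext_inner_right ℝ fun w => ?_
  have ec : ∀ a : E, ex (𝕜 := ℝ) (fun q : U => (a : TangentSpace 𝓘(ℝ, E) q)) y = fun _ => a :=
    fun _ => rfl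
  have hc : ∀ a : E,
      DifferentiableAt ℝ (ex (𝕜 := ℝ) (fun q : U => (a : TangentSpace 𝓘(ℝ, E) q)) y) (y : E) :=
    fun a => differentiableAt_const a
  have h := koszul (X := fun _ => u) (Y := Y) (Z := fun _ => w) (x := y) ht hm
    (sec_md_iff.2 (hc u)) (sec_md_iff.2 hY) (sec_md_iff.2 (hc w))
  refine h.trans ?_
  unfold kz bg
  rw [dg_eq D hin hY (hc w), dg_eq D hin (hc u) (hc w), dg_eq D hin (hc u) hY,
    mlie_eq (hc u) hY, mlie_eq (hc u) (hc w), mlie_eq hY (hc w), hin, hin, hin, hin, ec, ec]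
  have h1 := D.koszul y y.2 u (Y y) w
  have h2 := D.symm y y.2 u (fderiv ℝ (ex Y y) y w)
  simp only [fderiv_fun_const, Pi.zero_apply, zero_apply, map_zero, sub_zero, add_zero, zero_sub,
    map_neg, neg_apply, map_add, add_apply]
  linarith

theorem curv_eq {X Y Z : (y : U) → TangentSpace 𝓘(ℝ, E) y} {y : U}
    (hX : ContDiffAt ℝ ∞ (ex X y) (y : E)) (hY : ContDiffAt ℝ ∞ (ex Y y) (y : E))
    (hZ : ∀ q : U, ContDiffAt ℝ ∞ (ex Z y) (q : E)) :
    cov (fun q => cov Z q (Y q)) y (X y) - cov (fun q => cov Z q (X q)) y (Y y)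
      - cov Z y (mlieBracket 𝓘(ℝ, E) X Y y)
      = fderiv ℝ C y (X y) (Y y) (Z y) - fderiv ℝ C y (Y y) (X y) (Z y)
        + C y (X y) (C y (Y y) (Z y)) - C y (Y y) (C y (X y) (Z y)) := by
  have : CompleteSpace E := FiniteDimensional.complete ℝ E
  have hC := (D.dC y).differentiableAt (by simp)
  have dZ : ∀ q : U, DifferentiableAt ℝ (ex Z q) (q : E) := fun q =>
    (hZ q).differentiableAt (by simp)
  have key : ∀ V : (y : U) → TangentSpace 𝓘(ℝ, E) y, ContDiffAt ℝ ∞ (ex V y) (y : E) → ∀ u : E,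
      cov (fun q => cov Z q (V q)) y u
        = fderiv ℝ (fderiv ℝ (ex Z y)) y u (V y) + fderiv ℝ (ex Z y) y (fderiv ℝ (ex V y) y u)
          + (fderiv ℝ C y u (V y) (Z y) + C y (fderiv ℝ (ex V y) y u) (Z y)
            + C y (V y) (fderiv ℝ (ex Z y) y u))
          + C y u (fderiv ℝ (ex Z y) y (V y) + C y (V y) (Z y)) := by
    intro V hV u
    have e : ex (fun q => cov Z q (V q)) y =ᶠ[𝓝 (y : E)]
        fun z => fderiv ℝ (ex Z y) z (ex V y z) + C z (ex V y z) (ex Z y z) := by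
      filter_upwards [val_io_ev y y] with z hz
      have h := cov_eq D hin ht hm (dZ (io y z)) (V (io y z))
      rw [hz] at h
      exact h
    obtain ⟨d, hd⟩ := fd_nab hC (hV.differentiableAt (by simp)) (hZ y)
    rw [cov_eq D hin ht hm (d.congr_of_eventuallyEq e), e.fderiv_eq, hd,
      cov_eq D hin ht hm (dZ y), ex_val, ex_val]
  rw [key Y hY, key X hX, cov_eq D hin ht hm (dZ y),
    mlie_eq (hX.differentiableAt (by simp)) (hY.differentiableAt (by simp)),
    symm2 (hZ y) (X y) (Y y)]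
  change @Eq E (@HSub.hSub E E E _ (@HSub.hSub E E E _ _ _) _) _
  simp only [map_add, map_sub, sub_apply]
  abel

end

end Vale.Agent.P250I
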