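import Mathlib.Geometry.Manifold.VectorBundle.CovariantDerivative.Torsion
import Mathlib.Geometry.Manifold.VectorBundle.CovariantDerivative.Metric
import Mathlib.Geometry.Manifold.Riemannian.Basic
import Mathlib.Analysis.Calculus.DifferentialForm.Basic
import Mathlib.LinearAlgebra.Complex.FiniteDimensional
import Mathlib.Analysis.InnerProductSpace.PiL2
import Mathlib.AlgebraicTopology.FundamentalGroupoid.SimplyConnected

/-! Kähler manifolds, Levi-Civita connection, geodesics, sectional curvature, bounded domains. -/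

namespace Vale.Agent.P250I

open scoped Manifold ContDiff
open Bundle VectorField

noncomputable section

/-- `ℂⁿ` with the Euclidean norm -/
abbrev Cn (n : ℕ) : Type := EuclideanSpace ℂ (Fin n)

variable (E : Type) [NormedAddCommGroup E] [NormedSpace ℂ E]
  {M : Type} [TopologicalSpace M] [ChartedSpace E M]

/-- the real tangent space at `x` -/
abbrev Tan (x : M) : Type := TangentSpace 𝓘(ℝ, E) x

variable {E} in
/-- The complex structure `J`: multiplication by `i` on the tangent space at `x`. -/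
def J {x : M} (v : Tan E x) : Tan E x := (Complex.I • (show E from v) : E)

variable {E} in
/-- The coordinate field `∂_v` of the chart at `p`: the pull back of the constant field `v`. -/
def dd (p : M) (v : E) (y : M) : Tan E y :=
  mpullback 𝓘(ℝ, E) 𝓘(ℝ, E) (chartAt E p) (fun _ => v) y

variable (M)

/-- `M` is a complex manifold: the changes of charts are holomorphic. -/
abbrev Holo : Prop := IsManifold 𝓘(ℂ, E) ω M

/-- `M` is a smooth real manifold. -/
abbrev RealSmooth : Prop := IsManifold 𝓘(ℝ, E) ∞ M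

/-- scalar products on the tangent spaces -/
abbrev Met : Type := RiemannianBundle fun x : M => Tan E x

/-- connections on the tangent bundle -/
abbrev Conn [RealSmooth E M] : Type := CovariantDerivative 𝓘(ℝ, E) E (Tan E : M → Type)

/-- smooth vector fields -/
abbrev Vec [RealSmooth E M] : Type := Cₛ^∞⟮𝓘(ℝ, E); E, (Tan E : M → Type)⟯

/-- `M` is biholomorphic to a bounded domain `U` of `E`. -/
def BddDomain : Prop :=
  ∃ (U : Set E) (F : M → E) (G : E → M), IsOpen U ∧ IsConnected U ∧ Bornology.IsBounded U ∧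
    MDifferentiable 𝓘(ℂ, E) 𝓘(ℂ, E) F ∧ MDifferentiableOn 𝓘(ℂ, E) 𝓘(ℂ, E) G U ∧
    (∀ x, F x ∈ U ∧ G (F x) = x) ∧ ∀ z ∈ U, F (G z) = z

variable [Met E M]

/-- The scalar products depend smoothly on the point. -/
abbrev SmoothMet [RealSmooth E M] : Prop :=
  IsContMDiffRiemannianBundle 𝓘(ℝ, E) ∞ E fun x : M => Tan E x

/-- The metric is Kähler: it is Hermitian and the form `g(J v, w)` is closed: in the chart at any
point `p` it is given by a 2-form `η` with `dη = 0`. -/
def Kaehler : Prop :=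
  (∀ (x : M) (v w : Tan E x), inner ℝ (J v) (J w) = inner ℝ v w) ∧
  ∀ p : M, ∃ η : E → E [⋀^Fin 2]→L[ℝ] ℝ, ∀ y ∈ (chartAt E p).source,
    DifferentiableAt ℝ η (chartAt E p y) ∧ extDeriv η (chartAt E p y) = 0 ∧
      ∀ v w : E, η (chartAt E p y) ![v, w] = inner ℝ (J (dd p v y)) (dd p w y)

variable {E M} [RealSmooth E M]

omit [Met E M] in
/-- The vector field `Y` is differentiable at `x`. -/
def DiffAt (Y : (x : M) → Tan E x) (x : M) : Prop :=
  MDifferentiableAt 𝓘(ℝ, E) (𝓘(ℝ, E).prod 𝓘(ℝ, E))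
    (fun p => (⟨p, Y p⟩ : TangentBundle 𝓘(ℝ, E) M)) x

/-- A Levi-Civita connection: smooth, torsion free and compatible with the metric. -/
structure IsLeviCivita [FiniteDimensional ℂ E] [SmoothMet E M] (cov : Conn E M) : Prop where
  smooth : cov.ContMDiffCovariantDerivative ∞
  torsion : cov.torsion = 0
  metric : CovariantDerivative.IsMetricCompatible (V := (Tan E : M → Type)) cov

omit [Met E M] in
/-- `J` is parallel: `∇_v (J Y) = J ∇_v Y`. -/
def ParallelJ (cov : Conn E M) : Prop :=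
  ∀ (Y : Vec E M) (x : M) (v : Tan E x), cov (fun q => J (Y q)) x v = J (cov Y x v)

/-- The curvature `R(X, Y) Z = ∇_X ∇_Y Z - ∇_Y ∇_X Z - ∇_[X,Y] Z` at `x`. -/
def curv (cov : Conn E M) (X Y Z : Vec E M) (x : M) : Tan E x :=
  cov (fun q => cov Z q (Y q)) x (X x) - cov (fun q => cov Z q (X q)) x (Y x) -
    cov Z x (mlieBracket 𝓘(ℝ, E) X Y x)

/-- The sectional curvature of the plane spanned by `X x` and `Y x`. -/
def sec (cov : Conn E M) (X Y : Vec E M) (x : M) : ℝ :=
  inner ℝ (curv cov X Y Y x) (X x) / (‖X x‖ ^ 2 * ‖Y x‖ ^ 2 - inner ℝ (X x) (Y x) ^ 2)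

/-- All sectional curvatures lie in `[-b, -a]`, `0 < a ≤ b`. -/
def Pinched (cov : Conn E M) : Prop :=
  ∃ a b : ℝ, 0 < a ∧ a ≤ b ∧ ∀ (X Y : Vec E M) (x : M), LinearIndependent ℝ ![X x, Y x] →
    -b ≤ sec cov X Y x ∧ sec cov X Y x ≤ -a

/-- A geodesic defined on `ℝ`: a smooth curve whose coordinates `z` in every chart satisfy
`∂_(z'') + ∇_(∂_(z')) ∂_(z') = 0`, that is `z''^k + Γ^k_ij z'^i z'^j = 0`. -/
def IsGeodesic (cov : Conn E M) (c : ℝ → M) : Prop :=
  ContMDiff 𝓘(ℝ, ℝ) 𝓘(ℝ, E) ∞ c ∧ ∀ (p : M) (t : ℝ), c t ∈ (chartAt E p).source →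
    dd p (deriv (deriv (chartAt E p ∘ c)) t) (c t) +
      cov (dd p (deriv (chartAt E p ∘ c) t)) (c t) (dd p (deriv (chartAt E p ∘ c) t) (c t)) = 0

/-- Geodesic completeness: every tangent vector is the initial velocity of a geodesic defined on
`ℝ`. -/
def Complete (cov : Conn E M) : Prop :=
  ∀ ξ : TangentBundle 𝓘(ℝ, E) M, ∃ c : ℝ → M, IsGeodesic cov c ∧
    ξ = ⟨c 0, mfderiv 𝓘(ℝ, ℝ) 𝓘(ℝ, E) c 0 (1 : ℝ)⟩

variable (E) in
/-- The assertion of the question for manifolds modelled on `E`. -/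
def Q [FiniteDimensional ℂ E] : Prop :=
  ∀ (M : Type) [TopologicalSpace M] [T2Space M] [SecondCountableTopology M] [ConnectedSpace M]
    [ChartedSpace E M] [Holo E M] [RealSmooth E M] [Met E M] [SmoothMet E M],
    Kaehler E M → SimplyConnectedSpace M →
    (∀ cov : Conn E M, IsLeviCivita cov → ParallelJ cov ∧ Complete cov ∧ Pinched cov) →
    BddDomain E M

end

end Vale.Agent.P250I
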