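import Vale.Agent.P250I46.Cov

/-! An open subset of a complex vector space with a Kähler metric as a Kähler manifold. -/

set_option linter.unusedSectionVars false
set_option maxSynthPendingDepth 3
set_option backward.isDefEq.respectTransparency false

namespace Vale.Agent.P250I

open scoped Manifold ContDiff Topology
open Bundle VectorField TopologicalSpace Filter Set Vale.Agent.P250

noncomputable section

variable {E : Type} [NormedAddCommGroup E] [NormedSpace ℂ E] [FiniteDimensional ℂ E]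
  {U : Opens E} {G : E → E →L[ℝ] E →L[ℝ] ℝ} {C : E → E →L[ℝ] E →L[ℝ] E}

theorem dd_eq (p : U) (v : E) (y : U) : dd p v y = v := mpull_val (𝕜 := ℝ) (fun _ => v) y

theorem dd_eq' (p : U) (v : E) : dd p v = fun _ => v := funext (dd_eq p v)

/-- multiplication by `i` -/
def jj (E : Type) [NormedAddCommGroup E] [NormedSpace ℂ E] : E →L[ℝ] E :=
  (Complex.I • ContinuousLinearMap.id ℂ E).restrictScalars ℝ

theorem jj_apply (v : E) : jj E v = Complex.I • v := rfl

theorem jj_jj (v : E) : jj E (jj E v) = -v := by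
  rw [jj_apply, jj_apply, smul_smul, Complex.I_mul_I, neg_one_smul]

/-- the antisymmetric part of `B(i v, w)` -/
def alt (E : Type) [NormedAddCommGroup E] [NormedSpace ℂ E] :
    (E →L[ℝ] E →L[ℝ] ℝ) →L[ℝ] E [⋀^Fin 2]→L[ℝ] ℝ :=
  (2 : ℝ)⁻¹ • (ContinuousAlternatingMap.alternatizeUncurryFinCLM ℝ E ℝ).comp
    (((ContinuousLinearMap.compL ℝ E (E →L[ℝ] ℝ) (E [⋀^Fin 1]→L[ℝ] ℝ))
      (ContinuousAlternatingMap.ofSubsingletonLIE (𝕜 := ℝ) (E := E) (F := ℝ)
        (0 : Fin 1)).toContinuousLinearEquiv.toContinuousLinearMap).comp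
      ((ContinuousLinearMap.compL ℝ E E (E →L[ℝ] ℝ)).flip (jj E)))

theorem alt_apply (B : E →L[ℝ] E →L[ℝ] ℝ) (v : Fin 2 → E) :
    alt E B v = (B (jj E (v 0)) (v 1) - B (jj E (v 1)) (v 0)) / 2 := by
  have h : alt E B v = (2 : ℝ)⁻¹ * ContinuousAlternatingMap.alternatizeUncurryFin
      ((ContinuousAlternatingMap.ofSubsingletonLIE (𝕜 := ℝ) (E := E) (F := ℝ)
        (0 : Fin 1)).toContinuousLinearEquiv.toContinuousLinearMap.comp (B.comp (jj E))) v := rfl
  rw [h, ContinuousAlternatingMap.alternatizeUncurryFin_apply, Fin.sum_univ_two]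
  change (2 : ℝ)⁻¹ * ((-1 : ℤ) ^ (0 : ℕ) • B (jj E (v 0)) (v 1)
    + (-1 : ℤ) ^ (1 : ℕ) • B (jj E (v 1)) (v 0)) = _
  simp only [pow_zero, one_smul, pow_one, neg_smul]
  ring

/-- the Kähler identities of the metric on `U` -/
structure KData (U : Set E) (G : E → E →L[ℝ] E →L[ℝ] ℝ) : Prop where
  herm : ∀ p ∈ U, ∀ X Y, G p (jj E X) (jj E Y) = G p X Y
  closed : ∀ p ∈ U, ∀ X Y Z, fderiv ℝ G p X (jj E Y) Z + fderiv ℝ G p Y (jj E Z) X
    + fderiv ℝ G p Z (jj E X) Y = 0

theorem fd_symm (D : Data U G C) (y : U) (X Y Z : E) :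
    fderiv ℝ G y X Y Z = fderiv ℝ G y X Z Y := by
  rw [← fd_const U.isOpen D.sG (f := fun q a b => G q a b) (fun _ _ _ _ => rfl) y.2,
    ← fd_const U.isOpen D.sG (f := fun q a b => G q b a) (fun p hp a b => D.symm p hp a b) y.2]

theorem fd_herm (D : Data U G C) (K : KData U G) (y : U) (X Y Z : E) :
    fderiv ℝ G y X (jj E Y) (jj E Z) = fderiv ℝ G y X Y Z := by
  rw [← fd_const U.isOpen D.sG (f := fun q a b => G q a b) (fun _ _ _ _ => rfl) y.2,
    ← fd_const U.isOpen D.sG (f := fun q a b => G q (jj E a) (jj E b))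
      (fun p hp a b => (K.herm p hp a b).symm) y.2]

theorem skew (K : KData U G) (y : U) (X Y : E) : G y (jj E X) Y = -G y X (jj E Y) := by
  rw [← K.herm y y.2 X (jj E Y), jj_jj, map_neg, neg_neg]

theorem chr_jj (D : Data U G C) (K : KData U G) (y : U) (u v : E) :
    C y u (jj E v) = jj E (C y u v) := by
  have key : ∀ w, G y (C y u (jj E v) - jj E (C y u v)) w = 0 := by
    intro w
    have h1 := D.koszul y y.2 u (jj E v) w
    have h2 := D.koszul y y.2 u v (jj E w)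
    have h3 := K.closed y y.2 u v w
    have h4 := K.closed y y.2 u (jj E v) (jj E w)
    have h5 := fd_herm D K y w u (jj E v)
    rw [jj_jj, jj_jj, fd_herm D K] at h4
    rw [jj_jj] at h5
    have h6 := fd_symm D y v (jj E w) u
    have h7 := fd_symm D y (jj E v) w u
    simp only [map_neg, neg_apply] at h4 h5
    rw [map_sub, sub_apply, skew K]
    linarith
  by_contra hne
  exact (D.pos y y.2 _ (sub_ne_zero.2 hne)).ne' (key _)

variable [Met E U] [SmoothMet E U] (D : Data U G C) (K : KData U G)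
  (hin : ∀ (y : U) (v w : Tan E y), inner ℝ v w = G y v w)
include D hin

theorem vec_cd (X : Vec E U) (p q : U) : ContDiffAt ℝ ∞ (ex X p) (q : E) :=
  sec_cm_iff.1 (X.contMDiff q)

theorem curv_co {cov : Conn E U} (h : IsLeviCivita cov) (X Y Z : Vec E U) (y : U) :
    curv cov X Y Z y = fderiv ℝ C y (X y) (Y y) (Z y) - fderiv ℝ C y (Y y) (X y) (Z y)
      + C y (X y) (C y (Y y) (Z y)) - C y (Y y) (C y (X y) (Z y)) :=
  curv_eq D hin h.torsion h.metric (vec_cd D hin X y y) (vec_cd D hin Y y y) (vec_cd D hin Z y)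

theorem complete {cov : Conn E U} (h : IsLeviCivita cov)
    (hc : S.GeodesicallyComplete (fun p X Y => C p X Y) (U : Set E)) : Complete cov := by
  rintro ⟨x, v⟩
  obtain ⟨γ, γ', h0, h0', hγ⟩ := hc x x.2 v
  have hs : ContDiff ℝ ∞ γ :=
    geo_smooth D.sC (fun t => (hγ t).1) (fun t => (hγ t).2.1) fun t => (hγ t).2.2
  let c : ℝ → U := fun t => ⟨γ t, (hγ t).1⟩
  have hcs : ContMDiff 𝓘(ℝ, ℝ) 𝓘(ℝ, E) ∞ c :=
    (ContMDiff.subtypeVal_comp_iff U c).1 hs.contMDiff
  have e1 : deriv γ = γ' := funext fun t => (hγ t).2.1.deriv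
  refine ⟨c, ⟨hcs, fun p t _ => ?_⟩, ?_⟩
  · have e : chartAt E p ∘ c = γ := rfl
    rw [e, e1, (hγ t).2.2.deriv, dd_eq', dd_eq',
      cov_eq D hin h.torsion h.metric (differentiableAt_const (γ' t))]
    have e2 : ex (𝕜 := ℝ) (fun _ : U => γ' t) (c t) = fun _ => γ' t := rfl
    rw [e2, fderiv_fun_const]
    change @Eq E (@HAdd.hAdd E E E _ _ _) 0
    simp [c]
  · have hx : c 0 = x := Subtype.ext h0
    have h1 := (hasM_val (𝕜 := ℝ) (c 0)).comp 0 ((hcs 0).mdifferentiableAt (by simp)).hasMFDerivAt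
    have h2 : HasMFDerivAt 𝓘(ℝ, ℝ) 𝓘(ℝ, E) (Subtype.val ∘ c) 0
        (ContinuousLinearMap.toSpanSingleton ℝ (γ' 0)) :=
      (hγ 0).2.1.hasFDerivAt.hasMFDerivAt
    have h3 : mfderiv 𝓘(ℝ, ℝ) 𝓘(ℝ, E) c 0 (1 : ℝ) = v := by
      have h4 := congrArg (fun A : ℝ →L[ℝ] E => A 1) (h1.mfderiv.symm.trans h2.mfderiv)
      exact Eq.trans h4 ((one_smul ℝ (γ' 0)).trans h0')
    rw [h3]
    subst hx
    rfl

include K

theorem kaehler : Kaehler E U := by
  refine ⟨fun x v w => ?_, fun p => ⟨fun z => alt E (G z), fun y _ => ?_⟩⟩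
  · rw [hin, hin]
    exact K.herm x x.2 v w
  · have hG := (D.dG y).differentiableAt (by simp)
    have hη : HasFDerivAt (fun z => alt E (G z)) ((alt E).comp (fderiv ℝ G y)) (y : E) :=
      (alt E).hasFDerivAt.comp _ hG.hasFDerivAt
    rw [chart_coe]
    refine ⟨hη.differentiableAt, ?_, fun v w => ?_⟩
    · ext v
      unfold extDeriv
      rw [hη.fderiv, ContinuousAlternatingMap.alternatizeUncurryFin_apply, Fin.sum_univ_three]
      simp only [ContinuousLinearMap.comp_apply, alt_apply]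
      change (-1 : ℤ) ^ (0 : ℕ) • ((fderiv ℝ G y (v 0) (jj E (v 1)) (v 2)
          - fderiv ℝ G y (v 0) (jj E (v 2)) (v 1)) / 2)
        + (-1 : ℤ) ^ (1 : ℕ) • ((fderiv ℝ G y (v 1) (jj E (v 0)) (v 2)
          - fderiv ℝ G y (v 1) (jj E (v 2)) (v 0)) / 2)
        + (-1 : ℤ) ^ (2 : ℕ) • ((fderiv ℝ G y (v 2) (jj E (v 0)) (v 1)
          - fderiv ℝ G y (v 2) (jj E (v 1)) (v 0)) / 2) = 0
      have h1 := K.closed y y.2 (v 0) (v 1) (v 2)
      have h2 := K.closed y y.2 (v 0) (v 2) (v 1)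
      simp only [pow_zero, one_smul, pow_one, neg_smul, even_two, Even.neg_pow, one_pow]
      linarith
    · rw [alt_apply, hin, dd_eq, dd_eq]
      change (G y (jj E v) w - G y (jj E w) v) / 2 = G y (jj E v) w
      rw [skew K y w, D.symm y y.2 w]
      ring

theorem parallel {cov : Conn E U} (h : IsLeviCivita cov) : ParallelJ cov := by
  intro Y y v
  have hY := (vec_cd D hin Y y y).differentiableAt (by simp)
  have hJ : HasFDerivAt (ex (𝕜 := ℝ) (fun q => J (Y q)) y)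
      ((jj E).comp (fderiv ℝ (ex Y y) y)) (y : E) := (jj E).hasFDerivAt.comp _ hY.hasFDerivAt
  rw [cov_eq D hin h.torsion h.metric hJ.differentiableAt, cov_eq D hin h.torsion h.metric hY,
    hJ.fderiv]
  change jj E (fderiv ℝ (ex Y y) y v) + C y v (jj E (Y y))
    = jj E (fderiv ℝ (ex Y y) y v + C y v (Y y))
  rw [map_add, chr_jj D K]

end

end Vale.Agent.P250I
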