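import Vale.Agent.P250I46.Ex
import Vale.Agent.P250.Bdl.B3

/-! The question fails in every dimension `n ≥ 3`; general facts on the definitions. -/

set_option linter.unusedSectionVars false
set_option maxSynthPendingDepth 3
set_option backward.isDefEq.respectTransparency false

namespace Vale.Agent.P250I

open scoped Manifold ContDiff Topology
open Bundle VectorField TopologicalSpace Filter Set Vale.Agent.P250

noncomputable section

variable {E : Type} [NormedAddCommGroup E] [NormedSpace ℂ E] [FiniteDimensional ℂ E]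

theorem bdd_of {U : Opens E} [Nonempty U] (h : BddDomain E U) :
    S.BiholomorphicToBoundedDomain (U : Set E) := by
  obtain ⟨V, F, G, h1, h2, h3, hF, hG, hFG, hGF⟩ := h
  obtain ⟨p⟩ := ‹Nonempty U›
  refine ⟨V, F ∘ io p, Subtype.val ∘ G, h1, h2, h3, fun z hz => ?_, ?_, fun z _ => (hFG _).1,
    fun z _ => (G z).2, fun z hz => ?_, fun z hz => ?_⟩
  · exact (md_iff.1 (hF ⟨z, hz⟩)).differentiableWithinAt
  · refine mdifferentiableOn_iff_differentiableOn.1 fun z hz => ?_
    exact (hasM_val (𝕜 := ℂ) (G z)).mdifferentiableAt.comp_mdifferentiableWithinAt z (hG z hz)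
  · rw [Function.comp_apply, Function.comp_apply, (hFG _).2, val_io p hz]
  · rw [Function.comp_apply, Function.comp_apply, io_val, hGF z hz]

theorem transfer {U : Opens E} {g : E → E → E → ℝ} {Γ : E → E → E → E}
    (hg : S.IsKaehlerMetric g (U : Set E)) (hΓ : S.IsLeviCivita g Γ (U : Set E))
    (hc : S.GeodesicallyComplete Γ (U : Set E))
    (hp : ∃ a b : ℝ, 0 < a ∧ a ≤ b ∧ ∀ p ∈ (U : Set E), ∀ X Y, LinearIndependent ℝ ![X, Y] →
      -b ≤ S.sectional g Γ p X Y ∧ S.sectional g Γ p X Y ≤ -a) :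
    ∃ (_ : Met E U) (_ : SmoothMet E U), Kaehler E U ∧
      ∀ cov : Conn E U, IsLeviCivita cov → ParallelJ cov ∧ Complete cov ∧ Pinched cov := by
  obtain ⟨G, C, D, hG, hC⟩ := exists_data U.isOpen hg.toIsRiemannianMetric hΓ
  have K : KData U G := ⟨fun p hp X Y => by
      rw [hG p hp, hG p hp]; exact hg.hermitian p hp X Y,
    fun p hp X Y Z => by
      rw [← fd_const U.isOpen D.sG hG hp, ← fd_const U.isOpen D.sG hG hp,
        ← fd_const U.isOpen D.sG hG hp]
      exact hg.closed p hp X Y Z⟩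
  let m : Met E U := ⟨D.met.toRiemannianMetric⟩
  have s : SmoothMet E U := ⟨D.met.inner, D.met.contMDiff, fun _ _ _ => rfl⟩
  have hin : ∀ (y : U) (v w : Tan E y), inner ℝ v w = G y v w := fun _ _ _ => rfl
  refine ⟨m, s, kaehler D K hin, fun cov h => ⟨parallel D K hin h, complete D hin h ?_, ?_⟩⟩
  · intro p hp X
    obtain ⟨γ, γ', h0, h0', hγ⟩ := hc p hp X
    refine ⟨γ, γ', h0, h0', fun t => ⟨(hγ t).1, (hγ t).2.1, ?_⟩⟩
    change HasDerivAt γ' (-(C (γ t) (γ' t) (γ' t))) t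
    rw [hC _ (hγ t).1]
    exact (hγ t).2.2
  · obtain ⟨a, b, ha, hab, hs⟩ := hp
    refine ⟨a, b, ha, hab, fun X Y x hi => ?_⟩
    have e : sec cov X Y x = S.sectional g Γ x (X x) (Y x) := by
      unfold sec S.sectional
      rw [curv_co D hin h, ← real_inner_self_eq_norm_sq, ← real_inner_self_eq_norm_sq, hin, hin,
        hin, hin, riem_eq U.isOpen D.sC hC x.2, hG x x.2, hG x x.2, hG x x.2, hG x x.2]
    rw [e]
    exact hs x x.2 (X x) (Y x) hi

theorem not_Q (n : ℕ) (hn : 3 ≤ n) : ¬ Q (Cn n) := by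
  intro hQ
  obtain ⟨M, g, Γ, h1, h2, h3, h4, h5, h6, h7⟩ := Vale.Agent.P250.G.main_all n hn
  let U : Opens (Cn n) := ⟨M, h1⟩
  have : SimplyConnectedSpace U := h2
  obtain ⟨m, s, hK, hcov⟩ := transfer (U := U) h3 h4 h5 h6
  exact h7 (bdd_of (hQ U hK this hcov))

variable {M : Type} [TopologicalSpace M] [ChartedSpace E M]

theorem hasM_real {f : M → E} {y : M} {A : E →L[ℂ] E} (h : HasMFDerivAt 𝓘(ℂ, E) 𝓘(ℂ, E) f y A) :
    HasMFDerivAt 𝓘(ℝ, E) 𝓘(ℝ, E) f y (A.restrictScalars ℝ) :=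
  ⟨h.1, HasFDerivWithinAt.restrictScalars ℝ (E := E) (F := E) h.2⟩

variable [RealSmooth E M]

theorem inv_chart {p y : M} (hy : y ∈ (chartAt E p).source) :
    (mfderiv 𝓘(ℝ, E) 𝓘(ℝ, E) (chartAt E p) y).IsInvertible :=
  isInvertible_mfderiv_extChartAt (I := 𝓘(ℝ, E)) (x := p) (by rwa [extChartAt_source])

theorem dd_J [Holo E M] {p y : M} (hy : y ∈ (chartAt E p).source) (v : E) :
    J (dd p v y) = dd p (Complex.I • v) y := by
  have h := ((mdifferentiable_chart (I := 𝓘(ℂ, E)) p).mdifferentiableAt hy).hasMFDerivAt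
  have e := (hasM_real h).mfderiv
  have hi := inv_chart (E := E) hy
  have h1 : mfderiv 𝓘(ℝ, E) 𝓘(ℝ, E) (chartAt E p) y (dd p v y) = v := hi.self_apply_inverse v
  refine (hi.inverse_apply_eq.2 ?_).symm
  conv_lhs => rw [← h1]
  rw [e]
  exact ((mfderiv 𝓘(ℂ, E) 𝓘(ℂ, E) (chartAt E p) y).map_smul Complex.I (dd p v y)).symm

theorem dd_diff {p y : M} (hy : y ∈ (chartAt E p).source) (v : E) : DiffAt (dd p v) y := by
  have : CompleteSpace E := FiniteDimensional.complete ℝ E
  exact MDifferentiableAt.mpullback_vectorField (n := ∞) (md_model (differentiableAt_const v))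
    (contMDiffOn_chart.contMDiffAt ((chartAt E p).open_source.mem_nhds hy)) (inv_chart hy)
    (by norm_cast)

theorem basics [T2Space M] [Holo E M] [Met E M] [SmoothMet E M] :
    (∀ p : M, ∀ y ∈ (chartAt E p).source, Function.Bijective (fun v : E => dd p v y) ∧
      ∀ v : E, DiffAt (dd p v) y ∧ J (dd p v y) = dd p (Complex.I • v) y) ∧
    (∀ (x : M) (v : Tan E x), ∃ X : Vec E M, X x = v) ∧
    (∃ cov : Conn E M, IsLeviCivita cov) ∧
    ∀ cov cov' : Conn E M, IsLeviCivita cov → IsLeviCivita cov' →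
      ∀ (Y : (x : M) → Tan E x) (x : M), DiffAt Y x → cov Y x = cov' Y x := by
  refine ⟨fun p y hy => ⟨(inv_chart hy).inverse.bijective, fun v => ⟨dd_diff hy v, dd_J hy v⟩⟩,
    fun x v => Vale.Agent.P211.exists_ext x v, ?_, fun cov cov' h h' Y x hY => ?_⟩
  · obtain ⟨cov, h⟩ := Vale.Agent.P211W.exists_lc (E := E) (M := M)
    exact ⟨cov, h.smooth, h.torsion, h.metric⟩
  · exact Vale.Agent.P211W.lc_unique ⟨h.smooth, h.torsion, h.metric⟩
      ⟨h'.smooth, h'.torsion, h'.metric⟩ hY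

end

end Vale.Agent.P250I
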