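import Vale.Agent.P250I46.Defs
import Mathlib.Geometry.Manifold.MFDeriv.Atlas
import Mathlib.Geometry.Manifold.MFDeriv.FDeriv

/-! Calculus on an open subset of a normed space seen as a manifold. -/

set_option linter.unusedSectionVars false
set_option backward.isDefEq.respectTransparency false

namespace Vale.Agent.P250I

open scoped Manifold ContDiff Topology
open Bundle VectorField TopologicalSpace Filter Set

noncomputable section

section
variable {E : Type} [TopologicalSpace E] {U : Opens E}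

/-- the inverse of the chart -/
def io (p : U) : E → U := (chartAt E p).symm

theorem chart_coe (p y : U) : chartAt E p y = (y : E) := rfl

theorem chart_source (p : U) : (chartAt E p).source = univ := by
  rw [Opens.chartAt_eq]
  simp

theorem io_val (p y : U) : io p (y : E) = y :=
  (chartAt E p).left_inv (by rw [chart_source]; trivial)

theorem val_io (p : U) {z : E} (hz : z ∈ U) : (io p z : E) = z :=
  congrArg Subtype.val (io_val p ⟨z, hz⟩)

theorem io_eq (p q : U) : io p = io q := rfl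

theorem val_io_ev (p y : U) : ∀ᶠ z in 𝓝 (y : E), (io p z : E) = z := by
  filter_upwards [U.isOpen.mem_nhds y.2] with z hz using val_io p hz
end

variable {𝕜 : Type} [NontriviallyNormedField 𝕜] {E : Type} [NormedAddCommGroup E]
  [NormedSpace 𝕜 E] {F : Type} [NormedAddCommGroup F] [NormedSpace 𝕜 F] {U : Opens E}

theorem written_eq (f : U → F) (y : U) :
    writtenInExtChartAt 𝓘(𝕜, E) 𝓘(𝕜, F) y f = f ∘ io y := by
  funext z
  simp only [writtenInExtChartAt, extChartAt_model_space_eq_id, PartialEquiv.refl_coe,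
    Function.comp_apply, id_eq, extChartAt_coe_symm, modelWithCornersSelf_coe_symm]
  rfl

theorem hasM_iff {f : U → F} {y : U} {f' : E →L[𝕜] F} :
    HasMFDerivAt 𝓘(𝕜, E) 𝓘(𝕜, F) f y f' ↔ HasFDerivAt (f ∘ io y) f' (y : E) := by
  unfold HasMFDerivAt
  rw [written_eq, modelWithCornersSelf_coe, range_id, hasFDerivWithinAt_univ]
  refine ⟨fun h => h.2, fun h => ⟨?_, h⟩⟩
  have h1 : ContinuousAt ((f ∘ io y) ∘ Subtype.val) y :=
    ContinuousAt.comp h.continuousAt continuous_subtype_val.continuousAt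
  have e : (f ∘ io y) ∘ Subtype.val = f := funext fun q => congrArg f (io_val y q)
  rwa [e] at h1

theorem md_iff {f : U → F} {y : U} :
    MDifferentiableAt 𝓘(𝕜, E) 𝓘(𝕜, F) f y ↔ DifferentiableAt 𝕜 (f ∘ io y) (y : E) :=
  ⟨fun h => (hasM_iff.1 h.hasMFDerivAt).differentiableAt,
    fun h => (hasM_iff.2 h.hasFDerivAt).mdifferentiableAt⟩

theorem mfderiv_eq {f : U → F} {y : U} (h : DifferentiableAt 𝕜 (f ∘ io y) (y : E)) :
    mfderiv 𝓘(𝕜, E) 𝓘(𝕜, F) f y = fderiv 𝕜 (f ∘ io y) (y : E) :=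
  (hasM_iff.2 h.hasFDerivAt).mfderiv

theorem hasM_val (y : U) :
    HasMFDerivAt 𝓘(𝕜, E) 𝓘(𝕜, E) (Subtype.val : U → E) y (ContinuousLinearMap.id 𝕜 E) :=
  hasM_iff.2 ((hasFDerivAt_id (y : E)).congr_of_eventuallyEq (val_io_ev y y))

theorem mpull_val (V : (z : E) → TangentSpace 𝓘(𝕜, E) z) (y : U) :
    mpullback 𝓘(𝕜, E) 𝓘(𝕜, E) (Subtype.val : U → E) V y = V y := by
  rw [mpullback_apply, (hasM_val y).mfderiv]
  exact congrArg (fun A : E →L[𝕜] E => A (V y)) ContinuousLinearMap.inverse_id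

theorem cm_iff {n : ℕ∞ω} {f : U → F} {y : U} :
    ContMDiffAt 𝓘(𝕜, E) 𝓘(𝕜, F) n f y ↔ ContDiffAt 𝕜 n (f ∘ io y) (y : E) := by
  have e : f = fun q : U => (f ∘ io y) q := funext fun q => (congrArg f (io_val y q)).symm
  conv_lhs => rw [e]
  rw [contMDiffAt_subtype_iff, contMDiffAt_iff_contDiffAt]

theorem triv_snd (p y : U) (v : E) :
    (trivializationAt E (TangentSpace 𝓘(𝕜, E) : U → Type) p ⟨y, v⟩).2 = v := by
  rw [TangentBundle.trivializationAt_apply]
  have h : HasFDerivAt (((chartAt E p).extend 𝓘(𝕜, E)) ∘ ((chartAt E y).extend 𝓘(𝕜, E)).symm)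
      (ContinuousLinearMap.id 𝕜 E) (y : E) :=
    (hasFDerivAt_id (y : E)).congr_of_eventuallyEq (val_io_ev y y)
  rw [modelWithCornersSelf_coe, range_id, fderivWithin_univ]
  exact congrArg (fun A : E →L[𝕜] E => A v) h.fderiv

/-- a vector field on `U` as a map of `E` -/
def ex (X : (y : U) → TangentSpace 𝓘(𝕜, E) y) (p : U) (z : E) : E := X (io p z)

theorem ex_val (X : (y : U) → TangentSpace 𝓘(𝕜, E) y) (p y : U) : ex X p y = X y :=
  congrArg (fun r => (X r : E)) (io_val p y)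

theorem sec_cm_iff {n : ℕ∞ω} {X : (y : U) → TangentSpace 𝓘(𝕜, E) y} {y : U} :
    ContMDiffAt 𝓘(𝕜, E) (𝓘(𝕜, E).prod 𝓘(𝕜, E)) n
      (fun q => (⟨q, X q⟩ : TangentBundle 𝓘(𝕜, E) U)) y ↔ ContDiffAt 𝕜 n (ex X y) (y : E) := by
  rw [contMDiffAt_section]
  have e : (fun q : U => (trivializationAt E (TangentSpace 𝓘(𝕜, E) : U → Type) y ⟨q, X q⟩).2)
      = fun q : U => (X q : E) := funext fun q => triv_snd y q (X q)
  rw [e]
  exact cm_iff

theorem sec_md_iff {X : (y : U) → TangentSpace 𝓘(𝕜, E) y} {y : U} :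
    MDifferentiableAt 𝓘(𝕜, E) (𝓘(𝕜, E).prod 𝓘(𝕜, E))
      (fun q => (⟨q, X q⟩ : TangentBundle 𝓘(𝕜, E) U)) y ↔ DifferentiableAt 𝕜 (ex X y) (y : E) := by
  rw [mdifferentiableAt_section]
  have e : (fun q : U => (trivializationAt E (TangentSpace 𝓘(𝕜, E) : U → Type) y ⟨q, X q⟩).2)
      = fun q : U => (X q : E) := funext fun q => triv_snd y q (X q)
  rw [e]
  exact md_iff

theorem md_model {V : E → E} {z : E} (h : DifferentiableAt 𝕜 V z) :
    MDifferentiableAt 𝓘(𝕜, E) (𝓘(𝕜, E).prod 𝓘(𝕜, E))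
      (fun q => (⟨q, V q⟩ : TangentBundle 𝓘(𝕜, E) E)) z := by
  rw [mdifferentiableAt_section]
  have e : (fun q : E => (trivializationAt E (TangentSpace 𝓘(𝕜, E) : E → Type) z ⟨q, V q⟩).2)
      = V := funext fun q => by rw [trivializationAt_model_space_apply]
  rw [e]
  exact h.mdifferentiableAt

theorem mlie_eq [CompleteSpace E] [IsRCLikeNormedField 𝕜]
    {X Y : (y : U) → TangentSpace 𝓘(𝕜, E) y} {y : U}
    (hX : DifferentiableAt 𝕜 (ex X y) (y : E)) (hY : DifferentiableAt 𝕜 (ex Y y) (y : E)) :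
    (mlieBracket 𝓘(𝕜, E) X Y y : E)
      = fderiv 𝕜 (ex Y y) y (X y) - fderiv 𝕜 (ex X y) y (Y y) := by
  have hp : ∀ V : (y : U) → TangentSpace 𝓘(𝕜, E) y,
      mpullback 𝓘(𝕜, E) 𝓘(𝕜, E) (Subtype.val : U → E) (ex V y) = V := by
    intro V
    funext q
    rw [mpull_val]
    exact ex_val V y q
  have h := mpullback_mlieBracket (I := 𝓘(𝕜, E)) (I' := 𝓘(𝕜, E)) (f := (Subtype.val : U → E))
    (V := ex X y) (W := ex Y y) (x₀ := y) (n := ∞) (md_model hX) (md_model hY)
    (contMDiff_subtype_val y) (by rw [minSmoothness_of_isRCLikeNormedField]; norm_cast)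
  rw [hp, hp, mpull_val, ← mlieBracketWithin_univ, mlieBracketWithin_eq_lieBracketWithin,
    lieBracketWithin_univ] at h
  rw [← h, lieBracket_eq]
  change fderiv 𝕜 _ _ (ex X y y) - fderiv 𝕜 _ _ (ex Y y y) = _
  rw [ex_val, ex_val]

end

end Vale.Agent.P250I
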